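import Vale.Agent.P181.TL.Defs
import Vale.Agent.P181.SZR1b.Dim
import Vale.Agent.P181.DG6.H887.Sub

set_option autoImplicit false

/-!
# P181, TL, T3: refinement of the contents
-/

open MvPolynomial

namespace Vale.Agent.P181.TL.H353

open Vale.Agent.P181.T4 (HW rowOp rowOp_apply mem_HW)
open Vale.Agent.P181.SZ.R1b (coeff_cmp cmp_rowOp cdeg)
open Vale.Agent.P181.DG6.H887 (lsub lsub_X lsub_mem_HW)
open Vale.Agent.P181.TL

section pos

variable {J : Type}

/-- Polynomials with natural coefficients: products of occurring monomials occur. -/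
lemma coeff_mul_ne {a b : J →₀ ℕ} {f g : MvPolynomial J ℕ} (hf : coeff a f ≠ 0)
    (hg : coeff b g ≠ 0) : coeff (a + b) (f * g) ≠ 0 := by
  classical
  rw [coeff_mul]
  have h := Finset.single_le_sum (f := fun x : (J →₀ ℕ) × (J →₀ ℕ) => coeff x.1 f * coeff x.2 g)
    (s := Finset.HasAntidiagonal.antidiagonal (a + b)) (a := (a, b))
    (fun _ _ => Nat.zero_le _) (Finset.HasAntidiagonal.mem_antidiagonal.2 rfl)
  have h1 : 0 < coeff a f * coeff b g := Nat.mul_pos (Nat.pos_of_ne_zero hf) (Nat.pos_of_ne_zero hg)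
  simp only at h
  omega

lemma coeff_pow_ne {a : J →₀ ℕ} {f : MvPolynomial J ℕ} (hf : coeff a f ≠ 0) (n : ℕ) :
    coeff (n • a) (f ^ n) ≠ 0 := by
  classical
  induction n with
  | zero => simp
  | succ n ih => rw [succ_nsmul, pow_succ]; exact coeff_mul_ne ih hf

lemma coeff_prod_ne {ι : Type} (s : Finset ι) (a : ι → (J →₀ ℕ)) (f : ι → MvPolynomial J ℕ)
    (h : ∀ i ∈ s, coeff (a i) (f i) ≠ 0) : coeff (∑ i ∈ s, a i) (∏ i ∈ s, f i) ≠ 0 := by
  classical
  induction s using Finset.induction_on with
  | empty => simp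
  | insert x s hx ih =>
    rw [Finset.sum_insert hx, Finset.prod_insert hx]
    exact coeff_mul_ne (h x (Finset.mem_insert_self _ _))
      (ih fun i hi => h i (Finset.mem_insert_of_mem hi))

end pos

variable {k : ℕ} {α β : Type} [Fintype α] [Fintype β]

/-- The matrix of the substitution `X (i, j) ↦ ∑ r, X (i, (j, r))`. -/
def AA (α β : Type) [DecidableEq α] : α → α × β → ℂ := fun i p => if p.1 = i then 1 else 0

lemma lsub_AA [DecidableEq α] (p : Fin k × α) :
    lsub k (AA α β) (X p) = ∑ r : β, X (p.1, (p.2, r)) := by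
  rw [lsub_X, Fintype.sum_prod_type, Finset.sum_eq_single p.2]
  · refine Finset.sum_congr rfl fun r _ => ?_
    simp [AA]
  · intro i _ hi
    refine Finset.sum_eq_zero fun r _ => ?_
    simp [AA, hi]
  · intro h
    exact absurd (Finset.mem_univ _) h

/-- The columns are separated by new variables. -/
noncomputable def La (k : ℕ) (α β : Type) :
    MvPolynomial (Fin k × (α × β)) ℂ →ₐ[ℂ] MvPolynomial (α × β) (MvPolynomial (Fin k × α) ℂ) :=
  aeval (fun p => X p.2 * C (X (p.1, p.2.1)))

/-- The number of refinements, as a polynomial with natural coefficients. -/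
noncomputable def P0 (α β : Type) [Fintype α] [Fintype β] (c : α → ℕ) :
    MvPolynomial (α × β) ℕ := ∏ i, (∑ r, X (i, r)) ^ c i

lemma coeff_P0 {c : α → ℕ} {u : α × β → ℕ} (h : ∀ i, ∑ r, u (i, r) = c i) :
    coeff (Finsupp.equivFunOnFinite.symm u) (P0 α β c) ≠ 0 := by
  classical
  have h1 : P0 α β c = ∏ p : α × β, (∑ r, X (p.1, r)) ^ u p := by
    rw [Fintype.prod_prod_type, P0]
    refine Finset.prod_congr rfl fun i _ => ?_
    simp only
    rw [← h i, Finset.prod_pow_eq_pow_sum]
  have h2 : Finsupp.equivFunOnFinite.symm u = ∑ p : α × β, u p • Finsupp.single p 1 := by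
    ext q
    rw [Finsupp.finsetSum_apply, Finset.sum_eq_single q]
    · simp
    · intro p _ hp
      simp [hp]
    · intro h
      exact absurd (Finset.mem_univ _) h
  rw [h1, h2]
  apply coeff_prod_ne
  rintro ⟨i, r⟩ -
  apply coeff_pow_ne
  rw [coeff_sum]
  have h3 := Finset.single_le_sum
    (f := fun r' : β => coeff (Finsupp.single (i, r) 1) (X (i, r') : MvPolynomial (α × β) ℕ))
    (fun _ _ => Nat.zero_le _) (Finset.mem_univ r)
  have h4 : coeff (Finsupp.single (i, r) 1) (X (i, r) : MvPolynomial (α × β) ℕ) = 1 := by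
    rw [coeff_X, if_pos rfl]
  have h5 : coeff (Finsupp.single (i, r) 1) (X (i, r) : MvPolynomial (α × β) ℕ) ≤
    ∑ r', coeff (Finsupp.single (i, r) 1) (X (i, r') : MvPolynomial (α × β) ℕ) := h3
  rw [h4] at h5
  exact Nat.one_le_iff_ne_zero.1 h5

lemma La_lsub [DecidableEq α] {c : α → ℕ} {F : MvPolynomial (Fin k × α) ℂ}
    (hF : ∀ v, coeff v F ≠ 0 → ∀ j, ∑ i, v (i, j) = c j) :
    La k α β (lsub k (AA α β) F) =
      map (Nat.castRingHom (MvPolynomial (Fin k × α) ℂ)) (P0 α β c) * C F := by
  classical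
  have hX : ∀ p : Fin k × α, La k α β (lsub k (AA α β) (X p)) =
      (∑ r : β, X (p.2, r)) * C (X p) := by
    intro p
    rw [lsub_AA, map_sum, Finset.sum_mul]
    refine Finset.sum_congr rfl fun r _ => ?_
    rw [La, aeval_X]
  have hm : ∀ v ∈ F.support, La k α β (lsub k (AA α β) (monomial v (coeff v F))) =
      map (Nat.castRingHom (MvPolynomial (Fin k × α) ℂ)) (P0 α β c) *
        C (monomial v (coeff v F)) := by
    intro v hv
    have hv' := hF v (mem_support_iff.1 hv)
    have h1 : (monomial v (coeff v F) : MvPolynomial (Fin k × α) ℂ) =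
        C (coeff v F) * ∏ p, X p ^ v p := by
      rw [monomial_eq, Finsupp.prod_fintype]
      intro i
      exact pow_zero _
    have h2 : map (Nat.castRingHom (MvPolynomial (Fin k × α) ℂ)) (P0 α β c) =
        ∏ p : Fin k × α, (∑ r : β, X (p.2, r)) ^ v p := by
      rw [Fintype.prod_prod_type_right, P0, map_prod]
      refine Finset.prod_congr rfl fun i _ => ?_
      rw [map_pow, map_sum]
      simp only [map_X]
      rw [Finset.prod_pow_eq_pow_sum, hv' i]
    have h3 : La k α β (lsub k (AA α β) (C (coeff v F))) = C (C (coeff v F)) := by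
      have h4 : (C (coeff v F) : MvPolynomial (Fin k × α) ℂ) = algebraMap ℂ _ (coeff v F) := rfl
      rw [h4, AlgHom.commutes, AlgHom.commutes]
      rfl
    rw [h1, map_mul, map_mul, h3, map_prod, map_prod, h2, map_mul, map_prod, ← mul_assoc,
      mul_comm _ (C (C (coeff v F))), mul_assoc, ← Finset.prod_mul_distrib]
    congr 1
    refine Finset.prod_congr rfl fun p _ => ?_
    rw [map_pow, map_pow, hX, mul_pow, map_pow]
  conv_lhs => rw [F.as_sum, map_sum, map_sum]
  rw [Finset.sum_congr rfl hm, ← Finset.mul_sum, ← map_sum, ← F.as_sum]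

lemma coeff_La {u : α × β → ℕ} {G : MvPolynomial (Fin k × (α × β)) ℂ} (hG : SZ.R1b.cmp u G = 0) :
    coeff (Finsupp.equivFunOnFinite.symm u) (La k α β G) = 0 := by
  classical
  rw [G.as_sum, map_sum, coeff_sum]
  refine Finset.sum_eq_zero fun w _ => ?_
  have h1 : La k α β (monomial w (coeff w G)) =
      monomial (Finsupp.equivFunOnFinite.symm (cdeg w))
        (C (coeff w G) * ∏ p, X (p.1, p.2.1) ^ w p) := by
    rw [monomial_eq, Finsupp.prod_fintype _ _ (fun i => pow_zero _), map_mul, map_prod]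
    have h4 : La k α β (C (coeff w G)) = C (C (coeff w G)) := by
      have h5 : (C (coeff w G) : MvPolynomial (Fin k × (α × β)) ℂ) =
        algebraMap ℂ _ (coeff w G) := rfl
      rw [h5, AlgHom.commutes]
      rfl
    rw [h4, monomial_eq, Finsupp.prod_fintype _ _ (fun i => pow_zero _), map_mul, mul_assoc]
    congr 1
    have h6 : ∀ p : Fin k × (α × β), La k α β (X p ^ w p) =
        C (X (p.1, p.2.1) ^ w p) * X p.2 ^ w p := by
      intro p
      rw [map_pow, La, aeval_X, mul_pow, map_pow, mul_comm]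
    rw [Finset.prod_congr rfl fun p _ => h6 p, Finset.prod_mul_distrib, map_prod]
    congr 1
    rw [Fintype.prod_prod_type_right]
    refine Finset.prod_congr rfl fun j _ => ?_
    simp only
    rw [Finset.prod_pow_eq_pow_sum]
    rfl
  rw [h1, coeff_monomial]
  by_cases h : Finsupp.equivFunOnFinite.symm (cdeg w) = Finsupp.equivFunOnFinite.symm u
  · rw [if_pos h]
    have h2 : cdeg w = u := Finsupp.equivFunOnFinite.symm.injective h
    have h3 := congrArg (coeff w) hG
    rw [coeff_cmp, if_pos h2, coeff_zero] at h3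
    rw [h3, C_0, zero_mul]
  · rw [if_neg h]

/-- **(T3)** -/
theorem refB : RefB := by
  classical
  intro k α β _ _ c u tau hu
  have hfin : FiniteDimensional ℂ (KK k (α × β) u tau) := by
    have h : KK k (α × β) u tau ≤ HW k (α × β) tau := fun f hf => hf.1
    exact FiniteDimensional.of_injective (Submodule.inclusion h) (Submodule.inclusion_injective h)
  have hmem : ∀ f ∈ KK k α c tau, SZ.R1b.cmp u (lsub k (AA α β) f) ∈ KK k (α × β) u tau := by
    intro f hf
    have h0 := lsub_mem_HW (AA α β) hf.1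
    rw [mem_HW] at h0
    refine ⟨⟨fun v hv i => ?_, fun s i hsi => ?_⟩, fun v hv j => ?_⟩
    · rw [coeff_cmp] at hv
      by_cases h : cdeg v = u
      · rw [if_pos h] at hv
        exact h0.1 v hv i
      · rw [if_neg h] at hv
        exact absurd rfl hv
    · rw [cmp_rowOp, h0.2 s i hsi, map_zero]
    · rw [coeff_cmp] at hv
      by_cases h : cdeg v = u
      · exact congrFun h j
      · rw [if_neg h] at hv
        exact absurd rfl hv
  let Φ : KK k α c tau →ₗ[ℂ] KK k (α × β) u tau :=
    (((SZ.R1b.cmp u).comp (lsub k (AA α β)).toLinearMap).comp (KK k α c tau).subtype).codRestrict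
      (KK k (α × β) u tau) fun f => hmem f.1 f.2
  have hinj : Function.Injective Φ := by
    rw [← LinearMap.ker_eq_bot, LinearMap.ker_eq_bot']
    intro f hf
    apply Subtype.ext
    have h1 : SZ.R1b.cmp u (lsub k (AA α β) f.1) = 0 := congrArg Subtype.val hf
    have h2 := coeff_La h1
    rw [La_lsub f.2.2, mul_comm, coeff_C_mul, coeff_map, mul_comm] at h2
    rcases mul_eq_zero.1 h2 with h3 | h3
    · exfalso
      rw [eq_natCast, Nat.cast_eq_zero] at h3
      exact coeff_P0 hu h3
    · exact h3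
  exact LinearMap.finrank_le_finrank_of_injective hinj

end Vale.Agent.P181.TL.H353
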